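import Vale.Agent.Lib.P322.Bridge
import Vale.Agent.Lib.P322.Main

namespace Vale.Agent.Results.P322.A_allf

open Vale.Agent.Lib.P322

/-- The Courtade–Kumar inequality `I(f(X); Y) ≤ 1 - h₂(ε)` for every Boolean function `f` (balanced
or not), every `n` and every crossover probability `ε ∈ [21/50, 1/2]`, that is `0 ≤ ρ ≤ 4/25`. -/
theorem result {n : ℕ} (f : (Fin n → Bool) → Bool) {ε : ℝ} (h1 : 21 / 50 ≤ ε) (h2 : ε ≤ 1 / 2) :
    mutualInfoBits ε f ≤ 1 - Real.binEntropy ε / Real.log 2 := by
  apply mutualInfo_le_of_avg (by linarith) (by linarith) f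
  apply conj_avg (isBool_sf f)
  rw [abs_le]
  constructor <;> linarith

end Vale.Agent.Results.P322.A_allf
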