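import Vale.Agent.Lib.P322.Exact

namespace Vale.Agent.Results.P322.A_exact

open Vale.Agent.Lib.P322

/-- The Courtade-Kumar inequality `I(f(X);Y) ≤ 1 - h₂(ε)` holds for every Boolean function `f`
(balanced or not) in every dimension `n`, for all crossover probabilities
`0 ≤ ε ≤ exp(-10^15)`. -/
theorem result {n : ℕ} (f : (Fin n → Bool) → Bool) {ε : ℝ} (h0 : 0 ≤ ε)
    (h1 : ε ≤ Real.exp (-(10 ^ 15))) :
    mutualInfoBits ε f ≤ 1 - Real.binEntropy ε / Real.log 2 :=
  mutualInfo_exact f h0 h1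

end Vale.Agent.Results.P322.A_exact
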