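import Vale.Agent.Lib.P322B.E24Final
import Vale.Agent.Lib.P322B.Bridge

namespace Vale.Agent.Results.P322.A_full

open Vale.Agent.Lib.P322 Vale.Agent.Lib.P322B

/-- The Courtade–Kumar inequality `I(f(X); Y) ≤ 1 - h₂(ε)` for every `n`, every Boolean function `f`
on `{-1,1}^n` (balanced or not) and every crossover probability `ε ∈ [0, 1]`. -/
theorem result {n : ℕ} (f : (Fin n → Bool) → Bool) {ε : ℝ} (h0 : 0 ≤ ε) (h1 : ε ≤ 1) :
    mutualInfoBits ε f ≤ 1 - Real.binEntropy ε / Real.log 2 :=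
  ck_of_W E24W_holds f h0 h1

end Vale.Agent.Results.P322.A_full
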