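import Vale.Agent.Lib.P322.LowNoise

namespace Vale.Agent.Results.P322.A_lownoise

open Vale.Agent.Lib.P322

/-- A dimension-free bound for all Boolean functions and all noise levels. With `ρ = 1 - 2ε` and
`w = T ρ (sf f)` (the conditional mean of `f(X)` given `Y`):
(i) `ρ² I(f(X);Y) + (1 - ρ²)/(2 log 2) · Var(w) ≤ 1 - h₂(ε)`;
(ii) `I(f(X);Y) ≤ 1 - h₂(ε) + 4ε(1-ε)(1 - 1/(2 log 2))`;
(iii) for balanced `f`, `I(f(X);Y) ≤ (1 - h₂(ε)) / (ρ² + (1 - ρ²)/(2 log 2))`. -/
theorem result {n : ℕ} (f : (Fin n → Bool) → Bool) {ε : ℝ} (h0 : 0 ≤ ε) (h1 : ε ≤ 1 / 2) :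
    ((1 - 2 * ε) ^ 2 * mutualInfoBits ε f
        + (1 - (1 - 2 * ε) ^ 2) / (2 * Real.log 2)
          * (avg (fun y => T (1 - 2 * ε) (sf f) y ^ 2) - avg (sf f) ^ 2)
      ≤ 1 - Real.binEntropy ε / Real.log 2) ∧
    (mutualInfoBits ε f
      ≤ 1 - Real.binEntropy ε / Real.log 2 + 4 * ε * (1 - ε) * (1 - 1 / (2 * Real.log 2))) ∧
    (avg (sf f) = 0 →
      mutualInfoBits ε f
        ≤ (1 - Real.binEntropy ε / Real.log 2)
          / ((1 - 2 * ε) ^ 2 + (1 - (1 - 2 * ε) ^ 2) / (2 * Real.log 2))) := by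
  have hρ : |1 - 2 * ε| ≤ 1 := by
    rw [abs_le]; constructor <;> linarith
  have hlog : 0 < Real.log 2 := Real.log_pos (by norm_num)
  have hbf := isBool_sf f
  have hI := mutualInfo_eq hρ f
  have hC := one_sub_binEntropy h0 (by linarith : ε ≤ 1)
  set ρ := 1 - 2 * ε with hρdef
  set J := avg (fun y => phi (T ρ (sf f) y)) - phi (avg (sf f)) with hJ
  have hb : 1 - ρ ^ 2 = 4 * ε * (1 - ε) := by rw [hρdef]; ring
  have hb0 : 0 ≤ 1 - ρ ^ 2 := by rw [hb]; nlinarith
  have hV := basic_bound_var hρ hbf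
  have hB := basic_bound hρ hbf
  rw [hI, hC]
  refine ⟨?_, ?_, ?_⟩
  · -- (i)
    have e : ρ ^ 2 * (J / Real.log 2)
        + (1 - ρ ^ 2) / (2 * Real.log 2)
            * (avg (fun y => T ρ (sf f) y ^ 2) - avg (sf f) ^ 2)
        = (ρ ^ 2 * J + (1 - ρ ^ 2) / 2 * (avg (fun y => T ρ (sf f) y ^ 2) - avg (sf f) ^ 2))
          / Real.log 2 := by
      field_simp
    rw [e]
    exact div_le_div_of_nonneg_right hV hlog.le
  · -- (ii)
    have hw : ∀ y, |T ρ (sf f) y| ≤ 1 := abs_T_le hρ (fun x => hbf.abs_le x)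
    have hμ : |avg (sf f)| ≤ 1 := abs_avg_le_one (fun x => hbf.abs_le x)
    have h2 : avg (fun y => psi (T ρ (sf f) y)) ≤ Real.log 2 - 1 / 2 := by
      have := avg_mono (g := fun y => psi (T ρ (sf f) y)) (h := fun _ => Real.log 2 - 1 / 2)
        (fun y => psi_le (hw y))
      rwa [avg_const] at this
    have h3 := psi_nonneg hμ
    have h4 : J ≤ phi ρ + 4 * ε * (1 - ε) * (Real.log 2 - 1 / 2) := by
      refine hB.trans ?_
      rw [hb]
      have : 0 ≤ 4 * ε * (1 - ε) := by nlinarith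
      nlinarith
    have e : phi ρ / Real.log 2 + 4 * ε * (1 - ε) * (1 - 1 / (2 * Real.log 2))
        = (phi ρ + 4 * ε * (1 - ε) * (Real.log 2 - 1 / 2)) / Real.log 2 := by
      field_simp
    rw [e]
    exact div_le_div_of_nonneg_right h4 hlog.le
  · -- (iii)
    intro hbal
    have hw : ∀ y, |T ρ (sf f) y| ≤ 1 := abs_T_le hρ (fun x => hbf.abs_le x)
    rw [hJ, hbal]
    rw [hbal] at hV
    simp only [phi_zero, sub_zero] at hV ⊢
    rw [show (0 : ℝ) ^ 2 = 0 by norm_num, sub_zero] at hV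
    have hle : avg (fun y => phi (T ρ (sf f) y))
        ≤ Real.log 2 * avg (fun y => T ρ (sf f) y ^ 2) := by
      rw [← avg_mul_left]
      apply avg_mono
      intro y
      have h5 := phi_scale (r := T ρ (sf f) y) (t := 1) (hw y) (by norm_num)
      rw [mul_one, phi_one] at h5
      linarith
    have hden : 0 < ρ ^ 2 + (1 - ρ ^ 2) / (2 * Real.log 2) := by
      have hl1 : Real.log 2 < 1 := by
        have := Real.log_two_lt_d9
        linarith
      have h6 : ρ ^ 2 ≤ 1 := by nlinarith [abs_le.mp hρ]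
      rcases lt_or_eq_of_le hb0 with h7 | h7
      · have : 0 < (1 - ρ ^ 2) / (2 * Real.log 2) := by positivity
        nlinarith [sq_nonneg ρ]
      · have h8 : ρ ^ 2 = 1 := by linarith
        rw [h8]
        norm_num
    rw [le_div_iff₀ hden]
    have e : avg (fun y => phi (T ρ (sf f) y)) / Real.log 2
        * (ρ ^ 2 + (1 - ρ ^ 2) / (2 * Real.log 2))
        = (ρ ^ 2 * avg (fun y => phi (T ρ (sf f) y))
            + (1 - ρ ^ 2) / 2 * (avg (fun y => phi (T ρ (sf f) y)) / Real.log 2)) / Real.log 2 := by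
      field_simp
    rw [e]
    apply div_le_div_of_nonneg_right _ hlog.le
    have h9 : avg (fun y => phi (T ρ (sf f) y)) / Real.log 2
        ≤ avg (fun y => T ρ (sf f) y ^ 2) := by
      rw [div_le_iff₀ hlog]
      linarith
    have h10 := mul_le_mul_of_nonneg_left h9 (by positivity : 0 ≤ (1 - ρ ^ 2) / 2)
    linarith

end Vale.Agent.Results.P322.A_lownoise
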